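import Vale.Agent.P227.M.SC.PI
import Vale.Agent.P227.M.SC.MargReg

/-! The log-Laplace transform of a finite measure with bounded support: smooth, and all derivatives
of order `≥ 1` are bounded. -/

open MeasureTheory Set Filter
open scoped Topology ContDiff

namespace Vale.Agent.P254.X455

open Vale.Agent.P227.M.SC

section
variable {F Z : Type} [NormedAddCommGroup F] [NormedSpace ℝ F] [NormedAddCommGroup Z]
    [NormedSpace ℝ Z] [MeasurableSpace Z] [BorelSpace Z] [SecondCountableTopology Z]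

/-- the kernel `(h, y) ↦ exp (L y h)` -/
noncomputable def ker (L : F →L[ℝ] Z →L[ℝ] ℝ) (p : F × Z) : ℝ := Real.exp (L p.1 p.2)

theorem contDiff_bil (L : F →L[ℝ] Z →L[ℝ] ℝ) : ContDiff ℝ ∞ (fun p : F × Z => L p.1 p.2) :=
  L.isBoundedBilinearMap.contDiff

theorem contDiff_ker (L : F →L[ℝ] Z →L[ℝ] ℝ) : ContDiff ℝ ∞ (ker L) :=
  Real.contDiff_exp.comp (contDiff_bil L)

theorem fderiv_bil (L : F →L[ℝ] Z →L[ℝ] ℝ) :
    fderiv ℝ (fun p : F × Z => L p.1 p.2) = fun p => L.deriv₂ p := by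
  funext p
  exact (L.hasFDerivAt_of_bilinear hasFDerivAt_fst hasFDerivAt_snd).fderiv.trans (by
    ext <;> simp [ContinuousLinearMap.coe_deriv₂])

theorem norm_iter_bil (L : F →L[ℝ] Z →L[ℝ] ℝ) (p : F × Z) (i : ℕ) (hi : 1 ≤ i) :
    ‖iteratedFDeriv ℝ i (fun p : F × Z => L p.1 p.2) p‖ ≤ ‖L.deriv₂‖ * (1 + ‖p‖) := by
  obtain ⟨j, rfl⟩ : ∃ j, i = j + 1 := ⟨i - 1, by omega⟩
  rw [← norm_iteratedFDeriv_fderiv, fderiv_bil]
  have hK := norm_nonneg L.deriv₂
  have hp := norm_nonneg p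
  rcases j with _ | j
  · rw [norm_iteratedFDeriv_zero]
    refine (L.deriv₂.le_opNorm p).trans ?_
    nlinarith
  · rw [← norm_iteratedFDeriv_fderiv]
    have h2 : fderiv ℝ (fun p : F × Z => L.deriv₂ p) = fun _ => L.deriv₂ := by
      funext q
      exact L.deriv₂.fderiv
    rw [h2]
    rcases Nat.eq_zero_or_pos j with rfl | hj
    · rw [norm_iteratedFDeriv_zero]
      nlinarith
    · rw [iteratedFDeriv_const_of_ne (by omega : j ≠ 0)]
      simp only [Pi.zero_apply, norm_zero]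
      positivity

/-- majorant of the `j`-th derivative of the kernel -/
noncomputable def mj (L : F →L[ℝ] Z →L[ℝ] ℝ) (j : ℕ) (R r : ℝ) : ℝ :=
  j.factorial * Real.exp (‖L‖ * R * r) * (1 + ‖L.deriv₂‖ * (1 + R + r)) ^ j

theorem mj_mono (L : F →L[ℝ] Z →L[ℝ] ℝ) (j : ℕ) {R r s : ℝ} (hR : 0 ≤ R) (hr : 0 ≤ r)
    (h : r ≤ s) : mj L j R r ≤ mj L j R s := by
  unfold mj
  gcongr

theorem norm_iter_ker (L : F →L[ℝ] Z →L[ℝ] ℝ) (j : ℕ) {R : ℝ} (h : F) (z : Z) (hh : ‖h‖ ≤ R) :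
    ‖iteratedFDeriv ℝ j (ker L) (h, z)‖ ≤ mj L j R ‖z‖ := by
  have hR : 0 ≤ R := (norm_nonneg _).trans hh
  have hz := norm_nonneg z
  have hK := norm_nonneg L.deriv₂
  have hp : ‖(h, z)‖ ≤ R + ‖z‖ := by
    rw [Prod.norm_def]
    exact max_le (by simp only []; linarith) (by simp only []; linarith)
  have h1 : ‖iteratedFDeriv ℝ j (Real.exp ∘ fun p : F × Z => L p.1 p.2) (h, z)‖ ≤
      j.factorial * Real.exp (‖L‖ * R * ‖z‖) * (1 + ‖L.deriv₂‖ * (1 + R + ‖z‖)) ^ j := by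
    refine norm_iteratedFDeriv_comp_le (N := ∞) Real.contDiff_exp (contDiff_bil L)
      (by exact_mod_cast le_top) (h, z) ?_ ?_
    · intro i _
      rw [norm_iter_exp]
      refine Real.exp_le_exp.2 ?_
      calc L h z ≤ ‖L h z‖ := Real.le_norm_self _
        _ ≤ ‖L h‖ * ‖z‖ := (L h).le_opNorm z
        _ ≤ ‖L‖ * ‖h‖ * ‖z‖ := by gcongr; exact L.le_opNorm h
        _ ≤ _ := by gcongr
    · intro i hi1 _
      refine (norm_iter_bil L (h, z) i hi1).trans ?_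
      have h2 : ‖L.deriv₂‖ * (1 + ‖(h, z)‖) ≤ 1 + ‖L.deriv₂‖ * (1 + R + ‖z‖) := by
        have : ‖L.deriv₂‖ * (1 + ‖(h, z)‖) ≤ ‖L.deriv₂‖ * (1 + R + ‖z‖) :=
          mul_le_mul_of_nonneg_left (by linarith) hK
        linarith
      refine h2.trans (le_self_pow₀ ?_ (by omega))
      have : 0 ≤ ‖L.deriv₂‖ * (1 + R + ‖z‖) := by positivity
      linarith
  exact h1

theorem cont_mj (L : F →L[ℝ] Z →L[ℝ] ℝ) (j : ℕ) (R : ℝ) :
    Continuous fun z : Z => mj L j R ‖z‖ := by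
  unfold mj
  fun_prop

theorem int_mj (L : F →L[ℝ] Z →L[ℝ] ℝ) (j : ℕ) {R : ℝ} (hR : 0 ≤ R) {ν : Measure Z}
    [IsFiniteMeasure ν] {r : ℝ} (hν : ∀ᵐ z ∂ν, ‖z‖ ≤ r) :
    Integrable (fun z : Z => mj L j R ‖z‖) ν := by
  refine (integrable_const (mj L j R r)).mono' (cont_mj L j R).aestronglyMeasurable ?_
  filter_upwards [hν] with z hz
  have h0 : 0 ≤ mj L j R ‖z‖ := by unfold mj; positivity
  rw [Real.norm_of_nonneg h0]
  exact mj_mono L j hR (norm_nonneg _) hz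

theorem dom_ker (L : F →L[ℝ] Z →L[ℝ] ℝ) {ν : Measure Z}
    [IsFiniteMeasure ν] {r : ℝ} (hν : ∀ᵐ z ∂ν, ‖z‖ ≤ r) : Dom ν (ker L) := by
  intro j R
  refine ⟨fun z => mj L j (max R 0) ‖z‖, int_mj L j (le_max_right _ _) hν, fun h z hh => ?_⟩
  exact norm_iter_ker L j h z (hh.trans (le_max_left _ _))

/-- Laplace transform -/
noncomputable def lap (L : F →L[ℝ] Z →L[ℝ] ℝ) (ν : Measure Z) (x : F) : ℝ :=
  ∫ z, Real.exp (L x z) ∂ν

theorem contDiff_lap (L : F →L[ℝ] Z →L[ℝ] ℝ) {ν : Measure Z}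
    [IsFiniteMeasure ν] {r : ℝ} (hν : ∀ᵐ z ∂ν, ‖z‖ ≤ r) : ContDiff ℝ ∞ (lap L ν) :=
  contDiff_par (contDiff_ker L) (dom_ker L hν)

theorem lap_int (L : F →L[ℝ] Z →L[ℝ] ℝ) {ν : Measure Z}
    [IsFiniteMeasure ν] {r : ℝ} (hν : ∀ᵐ z ∂ν, ‖z‖ ≤ r) (x : F) :
    Integrable (fun z => Real.exp (L x z)) ν :=
  (dom_ker L hν).int (contDiff_ker L) x

theorem lap_pos (L : F →L[ℝ] Z →L[ℝ] ℝ) {ν : Measure Z}
    [IsFiniteMeasure ν] [NeZero ν] {r : ℝ} (hν : ∀ᵐ z ∂ν, ‖z‖ ≤ r) (x : F) : 0 < lap L ν x :=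
  integral_exp_pos (lap_int L hν x)

theorem lap_tilt (L : F →L[ℝ] Z →L[ℝ] ℝ) {ν : Measure Z}
    [IsFiniteMeasure ν] [NeZero ν] {r : ℝ} (hν : ∀ᵐ z ∂ν, ‖z‖ ≤ r) (x y : F) :
    lap L ν (x + y) = lap L ν x * lap L (ν.tilted fun z => L x z) y := by
  unfold lap
  rw [integral_tilted, ← integral_const_mul]
  congr 1
  funext z
  have h := (lap_pos L hν x).ne'
  unfold lap at h
  rw [map_add, add_apply, Real.exp_add, smul_eq_mul]
  field_simp

/-- **bounded derivatives of the log-Laplace transform** -/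
theorem bdd_logLap (L : F →L[ℝ] Z →L[ℝ] ℝ) {ν : Measure Z}
    [IsFiniteMeasure ν] [NeZero ν] {r : ℝ} (hr : 0 ≤ r) (hν : ∀ᵐ z ∂ν, ‖z‖ ≤ r) (k : ℕ)
    (hk : 1 ≤ k) : ∃ C : ℝ, ∀ x, ‖iteratedFDeriv ℝ k (fun x => Real.log (lap L ν x)) x‖ ≤ C := by
  -- bound of log at 1
  have hlog : ∀ i : ℕ, ∃ C : ℝ, ‖iteratedFDerivWithin ℝ i Real.log (Ioi 0) 1‖ ≤ C :=
    fun i => ⟨_, le_rfl⟩
  choose CL hCL using hlog
  have hCL0 : ∀ i, 0 ≤ max (CL i) 0 := fun i => le_max_right _ _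
  set K : ℕ → ℝ := fun j => mj L j 0 r with hK
  have hK0 : ∀ j, 0 ≤ K j := fun j => by simp only [hK]; unfold mj; positivity
  refine ⟨k.factorial * (∑ i ∈ Finset.range (k + 1), max (CL i) 0) *
    (1 + ∑ i ∈ Finset.range (k + 1), K i) ^ k, fun x => ?_⟩
  set μ := ν.tilted fun z => L x z with hμ
  haveI : IsProbabilityMeasure μ := isProbabilityMeasure_tilted (lap_int L hν x)
  have hμr : ∀ᵐ z ∂μ, ‖z‖ ≤ r := (tilted_absolutelyContinuous ν _) hν
  set N : F → ℝ := lap L μ with hN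
  have hNpos : ∀ y, 0 < N y := fun y => lap_pos L hμr y
  have hNs : ContDiff ℝ ∞ N := contDiff_lap L hμr
  have hN0 : N 0 = 1 := by simp [hN, lap]
  have hNd : ∀ i, ‖iteratedFDeriv ℝ i N 0‖ ≤ K i := by
    intro i
    refine ((par_main i (contDiff_ker L) (dom_ker L hμr)).2 0).trans ?_
    calc ∫ z, ‖iteratedFDeriv ℝ i (ker L) (0, z)‖ ∂μ ≤ ∫ _z, mj L i 0 r ∂μ := by
          refine integral_mono_ae ((dom_ker L hμr).int_iter (contDiff_ker L) i 0)
            (integrable_const _) ?_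
          filter_upwards [hμr] with z hz
          exact (norm_iter_ker L i 0 z (by simp)).trans (mj_mono L i le_rfl (norm_nonneg _) hz)
      _ = _ := by simp [hK]
  have hcomp : ‖iteratedFDeriv ℝ k (Real.log ∘ N) 0‖ ≤
      k.factorial * (∑ i ∈ Finset.range (k + 1), max (CL i) 0) *
        (1 + ∑ i ∈ Finset.range (k + 1), K i) ^ k := by
    refine norm_iteratedFDeriv_comp_le' (N := ∞) (t := Ioi 0) ?_ (uniqueDiffOn_Ioi 0) ?_ hNs
      (by exact_mod_cast le_top) 0 ?_ ?_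
    · rintro _ ⟨y, rfl⟩
      exact hNpos y
    · exact fun t ht => (Real.contDiffAt_log.2 (ne_of_gt ht)).contDiffWithinAt
    · intro i hi
      rw [hN0]
      refine (hCL i).trans ((le_max_left (CL i) 0).trans ?_)
      exact Finset.single_le_sum (f := fun i => max (CL i) 0) (fun i _ => hCL0 i)
        (Finset.mem_range.2 (by omega))
    · intro i hi1 hik
      refine (hNd i).trans ?_
      have h1 : K i ≤ ∑ i ∈ Finset.range (k + 1), K i :=
        Finset.single_le_sum (f := K) (fun i _ => hK0 i) (Finset.mem_range.2 (by omega))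
      have h2 : 0 ≤ ∑ i ∈ Finset.range (k + 1), K i := Finset.sum_nonneg fun i _ => hK0 i
      exact (by linarith : K i ≤ 1 + ∑ i ∈ Finset.range (k + 1), K i).trans
        (le_self_pow₀ (by linarith) (by omega))
  have hE : (fun y => Real.log (lap L ν (x + y))) = fun y => Real.log (lap L ν x) + (Real.log ∘ N) y := by
    funext y
    rw [lap_tilt L hν x y, Real.log_mul (lap_pos L hν x).ne' (hNpos y).ne']
    rfl
  have hT : iteratedFDeriv ℝ k (fun y => Real.log (lap L ν (x + y))) 0 =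
      iteratedFDeriv ℝ k (fun x => Real.log (lap L ν x)) x := by
    have := iteratedFDeriv_comp_add_left (𝕜 := ℝ) (f := fun x => Real.log (lap L ν x)) k x (0 : F)
    simpa using this
  rw [← hT, hE]
  have hsm : ContDiff ℝ ∞ (Real.log ∘ N) := hNs.log fun y => (hNpos y).ne'
  have h5 : iteratedFDeriv ℝ k (fun y => Real.log (lap L ν x) + (Real.log ∘ N) y) 0 =
      iteratedFDeriv ℝ k (Real.log ∘ N) 0 := by
    have h6 := iteratedFDeriv_add_apply (𝕜 := ℝ) (i := k) (x := (0 : F))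
      (f := fun _ : F => Real.log (lap L ν x)) (g := Real.log ∘ N)
      contDiff_const.contDiffAt ((hsm.of_le (by exact_mod_cast le_top)).contDiffAt)
    have h7 : (fun y => Real.log (lap L ν x) + (Real.log ∘ N) y) =
      (fun _ : F => Real.log (lap L ν x)) + (Real.log ∘ N) := rfl
    rw [h7, h6, iteratedFDeriv_const_of_ne (by omega : k ≠ 0)]
    simp
  rw [h5]
  exact hcomp

theorem contDiff_logLap (L : F →L[ℝ] Z →L[ℝ] ℝ) {ν : Measure Z}
    [IsFiniteMeasure ν] [NeZero ν] {r : ℝ} (hν : ∀ᵐ z ∂ν, ‖z‖ ≤ r) :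
    ContDiff ℝ ∞ (fun x => Real.log (lap L ν x)) :=
  (contDiff_lap L hν).log fun x => (lap_pos L hν x).ne'

end

end Vale.Agent.P254.X455
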